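import Mathlib

set_option autoImplicit false

/-!
# P181, TL, [G]: growth (second hand; Mathlib only)
-/

namespace Vale.Agent.P181.TL.H516

theorem pow_le_factorial (k : ℕ) : (k : ℝ) ^ k ≤ 3 ^ k * (k.factorial : ℝ) := by
  have h1 : (k : ℝ) ^ k / (k.factorial : ℝ) ≤ Real.exp k :=
    Real.pow_div_factorial_le_exp (k : ℝ) (Nat.cast_nonneg k) k
  have h2 : Real.exp (k : ℝ) ≤ 3 ^ k := by
    have h3 : Real.exp (k : ℝ) = Real.exp 1 ^ k := by
      rw [← Real.exp_nat_mul, mul_one]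
    rw [h3]
    exact pow_le_pow_left₀ (Real.exp_pos 1).le
      (by have := Real.exp_one_lt_d9; linarith) k
  have h4 : (0 : ℝ) < (k.factorial : ℝ) := by exact_mod_cast k.factorial_pos
  rw [div_le_iff₀ h4] at h1
  exact h1.trans (mul_le_mul_of_nonneg_right h2 h4.le)

theorem choose_mul_pow_le (n k : ℕ) : ((n.choose k : ℕ) : ℝ) * (k : ℝ) ^ k ≤ (3 * (n : ℝ)) ^ k := by
  have h4 : (0 : ℝ) < (k.factorial : ℝ) := by exact_mod_cast k.factorial_pos
  have h1 : ((n.choose k : ℕ) : ℝ) ≤ (n : ℝ) ^ k / (k.factorial : ℝ) := by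
    exact_mod_cast Nat.choose_le_pow_div (α := ℝ) k n
  have h2 := pow_le_factorial k
  calc ((n.choose k : ℕ) : ℝ) * (k : ℝ) ^ k
      ≤ ((n : ℝ) ^ k / (k.factorial : ℝ)) * (3 ^ k * (k.factorial : ℝ)) :=
        mul_le_mul h1 h2 (by positivity) (by positivity)
    _ = (3 * (n : ℝ)) ^ k := by
        rw [mul_pow]; field_simp

theorem growB : ∀ (a b q m t : ℕ), 0 < a → 5 ≤ q → 8 * q ≤ m → b ≤ t + a →
    10 ^ 6 * (m * q ^ 2) ^ 2 * a ≤ t →
    (a + b).choose a * (a + t - 1).choose t ≤ (t / a / q / (2 * m * q)) ^ ((q - 1) * a) := by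
  intro a b q m t ha hq hm hb ht
  set Y := m * q ^ 2 with hY
  have hY1 : 1 ≤ Y := by
    have : 0 < m := by omega
    have : 0 < q := by omega
    exact Nat.succ_le_of_lt (by positivity)
  set X := t / a / q / (2 * m * q) with hX
  have hXe : X = t / (2 * Y * a) := by
    rw [hX, Nat.div_div_eq_div_mul, Nat.div_div_eq_div_mul, hY]
    congr 1
    ring
  have hpos : 0 < 2 * Y * a := by positivity
  -- t < (X + 1) * (2 Y a)
  have h1 : t < (X + 1) * (2 * Y * a) := by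
    rw [hXe]
    exact (Nat.div_lt_iff_lt_mul hpos).1 (Nat.lt_succ_self _)
  have h2 : 500000 * Y ≤ X := by
    rw [hXe, Nat.le_div_iff_mul_le hpos]
    calc 500000 * Y * (2 * Y * a) = 10 ^ 6 * Y ^ 2 * a := by ring
      _ ≤ t := ht
  have h3 : 6 * t ≤ X ^ 2 * a := by
    have h5 : 12 * (X + 1) * Y ≤ X ^ 2 := by nlinarith
    calc 6 * t ≤ 6 * ((X + 1) * (2 * Y * a)) := by omega
      _ = (12 * (X + 1) * Y) * a := by ring
      _ ≤ X ^ 2 * a := Nat.mul_le_mul_right a h5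
  have hat : 2 * a ≤ t := by
    refine le_trans ?_ ht
    have : 1 ≤ Y ^ 2 := Nat.one_le_pow _ _ hY1
    nlinarith
  -- the binomials
  have hc2 : (a + t - 1).choose t ≤ (a + t).choose a := by
    have e1 : (a + t).choose a = (a + t).choose t := Nat.choose_symm_add
    rw [e1]
    exact Nat.choose_le_choose t (Nat.sub_le _ _)
  have hA := choose_mul_pow_le (a + b) a
  have hB := choose_mul_pow_le (a + t) a
  have haR : (0 : ℝ) < a := by exact_mod_cast ha
  have hapow : (0 : ℝ) < (a : ℝ) ^ a := by positivity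
  have hkey : (((a + b).choose a * (a + t - 1).choose t : ℕ) : ℝ) * ((a : ℝ) ^ a * (a : ℝ) ^ a)
      ≤ ((X : ℝ) ^ 4 * (a * a)) ^ a := by
    calc (((a + b).choose a * (a + t - 1).choose t : ℕ) : ℝ) * ((a : ℝ) ^ a * (a : ℝ) ^ a)
        ≤ (((a + b).choose a * (a + t).choose a : ℕ) : ℝ) * ((a : ℝ) ^ a * (a : ℝ) ^ a) := by
          refine mul_le_mul_of_nonneg_right ?_ (by positivity)
          exact_mod_cast Nat.mul_le_mul_left _ hc2
      _ = ((((a + b).choose a : ℕ) : ℝ) * (a : ℝ) ^ a) *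
          ((((a + t).choose a : ℕ) : ℝ) * (a : ℝ) ^ a) := by push_cast; ring
      _ ≤ (3 * ((a + b : ℕ) : ℝ)) ^ a * (3 * ((a + t : ℕ) : ℝ)) ^ a :=
          mul_le_mul hA hB (by positivity) (by positivity)
      _ = ((3 * ((a + b : ℕ) : ℝ)) * (3 * ((a + t : ℕ) : ℝ))) ^ a := (mul_pow _ _ _).symm
      _ ≤ ((X : ℝ) ^ 4 * (a * a)) ^ a := by
          refine pow_le_pow_left₀ (by positivity) ?_ a
          have h6 : (6 * (t : ℝ)) ≤ (X : ℝ) ^ 2 * a := by exact_mod_cast h3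
          have h7 : ((a + b : ℕ) : ℝ) ≤ 2 * (t : ℝ) := by
            have : a + b ≤ 2 * t := by omega
            exact_mod_cast this
          have h8 : ((a + t : ℕ) : ℝ) ≤ 2 * (t : ℝ) := by
            have : a + t ≤ 2 * t := by omega
            exact_mod_cast this
          calc (3 * ((a + b : ℕ) : ℝ)) * (3 * ((a + t : ℕ) : ℝ))
              ≤ (6 * (t : ℝ)) * (6 * (t : ℝ)) := by
                refine mul_le_mul ?_ ?_ (by positivity) (by positivity) <;> linarith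
            _ ≤ ((X : ℝ) ^ 2 * a) * ((X : ℝ) ^ 2 * a) :=
                mul_le_mul h6 h6 (by positivity) (by positivity)
            _ = (X : ℝ) ^ 4 * (a * a) := by ring
  have hfin : (((a + b).choose a * (a + t - 1).choose t : ℕ) : ℝ) ≤ ((X : ℝ) ^ 4) ^ a := by
    have e : ((X : ℝ) ^ 4 * (a * a)) ^ a = ((X : ℝ) ^ 4) ^ a * ((a : ℝ) ^ a * (a : ℝ) ^ a) := by
      rw [mul_pow, mul_pow]
    rw [e] at hkey
    exact le_of_mul_le_mul_right hkey (by positivity)
  have hX1 : 1 ≤ X := by omega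
  have hnat : (a + b).choose a * (a + t - 1).choose t ≤ (X ^ 4) ^ a := by exact_mod_cast hfin
  refine hnat.trans ?_
  rw [← pow_mul]
  exact Nat.pow_le_pow_right hX1 (Nat.mul_le_mul_right a (by omega))

end Vale.Agent.P181.TL.H516
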