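import Vale.Agent.P181.TL.DefsE
import Vale.Agent.P181.TL.H516.Grow

set_option autoImplicit false

/-! # P181, TL, [G]: `GrowB` -/

namespace Vale.Agent.P181.TL.H516

theorem grow : GrowB := growB

end Vale.Agent.P181.TL.H516
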